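import Vale.Agent.P248.Final

/-! The symmetric Mahler conjecture with its equality cases. -/

namespace Vale.Agent.Results.P248.Full

open MeasureTheory Vale.Agent.P248

theorem result (n : ℕ) (hn : 1 ≤ n) (K : Set (Fin n → ℝ)) (hK : IsCompact K) (hc : Convex ℝ K)
    (hi : (interior K).Nonempty) (hs : ∀ x ∈ K, -x ∈ K) :
    (4 : ℝ) ^ n / (n.factorial : ℝ) ≤ (volume K).toReal * (volume (polar K)).toReal ∧
      ((volume K).toReal * (volume (polar K)).toReal = (4 : ℝ) ^ n / (n.factorial : ℝ) ↔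
        ∃ H : Set (Fin n → ℝ), IsHanner n H ∧
          ∃ T : (Fin n → ℝ) ≃ₗ[ℝ] (Fin n → ℝ), K = T '' H) :=
  haveI : NeZero n := ⟨by omega⟩
  have hB := body_of_interior hK hc hi hs
  ⟨hB.mahler, hB.mahler_eq_iff.trans ⟨Body.linH n hn K hB, LinH.mp_eq⟩⟩

end Vale.Agent.Results.P248.Full
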