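import Vale.Agent.P248.Vol

/-! The symmetric Mahler inequality in every dimension. -/

namespace Vale.Agent.Results.P248.Ineq

open MeasureTheory

theorem result (n : ℕ) (hn : 1 ≤ n) (K : Set (Fin n → ℝ)) (hK : IsCompact K) (hc : Convex ℝ K)
    (hi : (interior K).Nonempty) (hs : ∀ x ∈ K, -x ∈ K) :
    (4 : ℝ) ^ n / (n.factorial : ℝ) ≤
      (volume K).toReal * (volume {y : Fin n → ℝ | ∀ x ∈ K, ∑ i, y i * x i ≤ 1}).toReal :=
  haveI : NeZero n := ⟨by omega⟩
  (Vale.Agent.P248.body_of_interior hK hc hi hs).mahler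

end Vale.Agent.Results.P248.Ineq
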